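import Vale.Agent.P167.H756.PF.Frame
import Vale.Agent.P167.H704.Shp.Cx

/-!
# P167, general `q`, [SHP-ASM] box (3): the closeness of the conformal data

`s_pf`: the shapes of the histories satisfy `ClS`.
-/

set_option autoImplicit false

open Set Topology Metric Filter Bornology
open scoped ComplexConjugate

namespace Vale.Agent.P167.H756.PFG

open Vale.Agent.P167.QT
open Vale.Agent.P167.H411 (exn Set6)
open Vale.Agent.P167.H756 (FD PF FlatAt)
open Vale.Agent.P167.H446.G (Cst ClS emb ea eb psr vd Ku)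
open Vale.Agent.P167.SG (Bf)
open Vale.Agent.P167.H704.Shp (Kst Obj Cx S_pf lb ps1)

/-- **Box (3).** -/
theorem s_pf : S_pf := by
  intro Φ ψ δ N k p S ψn H hSt T R Y hT hR hY0 hY hY2
  obtain ⟨Rd, hRd, cd, hcd, hconf⟩ := Vale.Agent.P167.H653.St.hconf_psr H hY0
  refine ⟨Rd + 1, by positivity, ?_⟩
  intro h hh a₀ ha₀
  obtain ⟨κ, hκ, hpf⟩ := pf_sat (T := T + 1) (R := R + 1) (Y := Y) (h := h) (a₀ := a₀) hRd hcd hY0
    hY hY2 hh ha₀
  refine ⟨κ, min (κ / 16) (h / 256), hκ, by positivity, ?_⟩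
  intro C K hK hCT hCR hCY hCRb hKa hKb hKh hKκ hKr
  have hr1 : K.r ≤ κ / 16 := hKr.trans (min_le_left _ _)
  have hr2 : K.r ≤ h / 256 := hKr.trans (min_le_right _ _)
  have hrc := hK.rc0
  refine ⟨min (κ / 320) (min (h / 480) (K.rc / 240)), by positivity, ?_⟩
  intro s hs hs'
  have hs1 : s ≤ κ / 320 := hs'.trans (min_le_left _ _)
  have hs2 : s ≤ h / 480 := hs'.trans ((min_le_right _ _).trans (min_le_left _ _))
  have hs3 : s ≤ K.rc / 240 := hs'.trans ((min_le_right _ _).trans (min_le_right _ _))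
  filter_upwards [hconf] with n hn A j hB c O hO
  have hδ : 0 < δ n := (H.appr.1 n).1
  have hlb : lb s (δ n) ≤ 5 * s := hO.lb1
  have hsat := hO.sat
  rw [hCT, hCR] at hsat
  haveI hfin := hO.fin
  haveI hfK := H397.K.finite_idx (p := p n) (k := k n) (S := S n) (A := A) (j := j) (c := c)
    (ρ := H446.G.rS s (δ n)) (R := H446.G.rR K.r (δ n)) hδ
  have hg2 := hK.cst.g2
  have hsm := hO.sm2
  have hb1 := hK.b02
  have ha1 : a₀ ≤ O.sm := by
    rw [← hKa]
    exact hO.sm1.le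
  have hh2 : K.h₁ + 2 * (2 * (2 * K.r)) + 3 * lb s (δ n) ≤ h / 4 := by linarith
  have hsm1 : O.sm < 1 := by linarith
  have hsmh : O.sm ≤ h := by linarith
  have hrl : 2 * (2 * K.r) + 16 * lb s (δ n) ≤ κ := by linarith
  unfold ClS
  refine ⟨?_, ?_⟩
  · have key := hpf (n := N n) (k := k n) (p := p n) (L := C.Ld) (s := s) (d := δ n) (ψn := ψn n)
      (v₁ := H704.Shp.v1 (p n) (k n) C.Ld s (δ n)) (ψ := ps1 C δ N k p ψn s n)
      (ℓ := lb s (δ n)) rfl rfl rfl (hn _) hsat (hg2.trans hKκ) hrl ha1 hsm1 hsmh hh2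
      hO.isMk hO.shd (Rb := C.Rb) hCRb.ge
    rw [hCY]
    exact key
  · have hm := hK.sm.m_pos
    have hm1 := hK.sm.m_Ld
    have hm2 := hK.sm.Ld_Lc
    have hm3 := hK.sm.Lc_le
    have e : lb s (δ n) / 5 = H446.G.dl (δ n) * H446.G.Nn s (δ n) := by
      unfold lb
      ring
    rw [← e]
    refine hO.shd.flat ?_ ?_
    · intro z hz
      apply hO.fl
      rw [mem_ball, dist_eq_norm] at hz
      have h1 := Complex.abs_re_le_norm (z - ((lb s (δ n) / 2 : ℝ) : ℂ))
      have h2 := Complex.abs_im_le_norm (z - ((lb s (δ n) / 2 : ℝ) : ℂ))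
      rw [Complex.sub_re, Complex.ofReal_re] at h1
      rw [Complex.sub_im, Complex.ofReal_im, sub_zero] at h2
      exact ⟨by linarith, by linarith⟩
    · by_contra hcon
      push Not at hcon
      have h1 := Complex.abs_re_le_norm (O.e' - ((lb s (δ n) / 2 : ℝ) : ℂ))
      have h2 := Complex.abs_im_le_norm (O.e' - ((lb s (δ n) / 2 : ℝ) : ℂ))
      rw [Complex.sub_re, Complex.ofReal_re, ← dist_eq_norm] at h1
      rw [Complex.sub_im, Complex.ofReal_im, sub_zero, ← dist_eq_norm] at h2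
      exact hO.e'_far ⟨by linarith, by linarith⟩

end Vale.Agent.P167.H756.PFG
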