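import Vale.Agent.P167.H756.PF.Gad
import Vale.Agent.P167.SG.Col
import Vale.Agent.P167.SG.Cls4
import Vale.Agent.P167.H450.OutY

/-!
# P167, general `q`, [PF]: the conditions `PF` for the outer polygons with a bump

`Bmp ℓ P e E G a`: `E` is the domain `P` with a bump in the small convex set `G` at the mark `e`, with
the new mark `a`. `pf_abs`: the outer polygon with its bump, the common inner polygon and the mark
satisfy `PF`.
-/

set_option autoImplicit false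

open Set Topology Metric Filter Bornology
open scoped ComplexConjugate

namespace Vale.Agent.P167.H756.PFG

open Vale.Agent.P153.R2.R1 (Good Conf dinv mb imb)
open Vale.Agent.P153.R2.L1 (HH)
open Vale.Agent.P164 (loewnerDomain gf Zf)
open Vale.Agent.P167.H756 (PF Inner Collar Cls FD FD_mb FD_img HConf Drv cls_FD)
open Vale.Agent.P167.SG Vale.Agent.P167.H450 Vale.Agent.P167.H450.Out

variable {T R Rd cd Y h a₀ : ℝ} {W : ℝ → ℝ} {t : ℝ} {ψ : ℂ → ℂ}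

/-- A domain with a bump. -/
structure Bmp (ℓ : ℝ) (P : Set ℂ) (e : ℂ) (E G : Set ℂ) (a : ℂ) : Prop where
  goodE : Good E
  sub : P ⊆ E
  sup : ∀ z ∈ E, z ∈ P ∨ z ∈ G
  fr : ∀ z ∈ frontier E, z ∈ frontier P ∨ z ∈ G
  conv : Convex ℝ G
  diam : ∀ z ∈ G, ∀ w ∈ G, dist z w ≤ 3 * ℓ
  e_mem : e ∈ G
  a_mem : a ∈ G
  a_fr : a ∈ frontier E
  rch : ∀ C ⊆ P, IsPreconnected C → e ∈ closure C → ∃ C' ⊆ E, IsPreconnected C' ∧
    C ⊆ C' ∧ (∀ z ∈ C', z ∈ C ∨ dist z e ≤ 6 * ℓ) ∧ a ∈ closure C'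

/-- The centre of the cut. -/
theorem zf_mark (H : Drv T R W t) (hd : DifferentiableOn ℂ ψ HH) (hi : InjOn ψ HH) {s : ℝ}
    (hs0 : 0 < s) (hs1 : s < 1) :
    ∃ z ∈ loewnerDomain W t, ψ z = FD ψ W t ((-1 + s : ℝ) : ℂ) ∧ ‖Zf W z t‖ < s := by
  have hw : ((-1 + s : ℝ) : ℂ) ∈ ball (0 : ℂ) 1 := by
    rw [mem_ball_zero_iff, Complex.norm_real, Real.norm_eq_abs, abs_lt]
    constructor <;> linarith
  have h1 : FD ψ W t ((-1 + s : ℝ) : ℂ) ∈ ψ '' loewnerDomain W t := by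
    rw [← FD_img H]
    exact mem_image_of_mem _ hw
  obtain ⟨z, hz, hzw⟩ := h1
  refine ⟨z, hz, hzw, ?_⟩
  have h2 := dinv_FD H hd hi hz
  rw [hzw, (conf_FD H hd hi).dinv_apply hw, pos] at h2
  have h3 := Vale.Agent.P164.Zf_im_pos H.nn hz
  have h4 := Vale.Agent.P153.R2.R1.imb_mb (β := 1) (c := Complex.I) norm_one (by simp) h3.le
  rw [← h2] at h4
  rw [← h4]
  have h5 : imb 1 Complex.I ((-1 + s : ℝ) : ℂ) = ((s / (2 - s) : ℝ) : ℂ) * Complex.I := by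
    have hne : (2 : ℂ) - s ≠ 0 := by
      have : (2 - s : ℝ) ≠ 0 := by linarith
      intro h
      apply this
      have h' : ((2 - s : ℝ) : ℂ) = 0 := by push_cast; exact h
      exact_mod_cast h'
    rw [imb, Complex.conj_I]
    push_cast
    have e1 : (1 : ℂ) - (-1 + s) = 2 - s := by ring
    rw [e1]
    field_simp
    ring
  rw [h5, norm_mul, Complex.norm_I, mul_one, Complex.norm_real,
    Real.norm_of_nonneg (div_nonneg hs0.le (by linarith)), div_lt_iff₀ (by linarith)]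
  nlinarith

/-- **The conditions of the sandwich for an outer polygon with a bump.** -/
theorem pf_abs (hRd : 0 < Rd) (hcd : 0 < cd) (hY0 : 0 < Y) (hY : 8 * R ≤ Y)
    (hY2 : 64 * T ≤ Y ^ 2) (hh : 0 < h) (ha : 0 < a₀) :
    ∃ κ > 0, ∀ {ι : Type} [Finite ι] {ψ : ℂ → ℂ} {W : ℝ → ℝ} {t σ ε ε' xc e ν r ℓ : ℝ}
      {K : ι → Set ℂ}, HConf Rd cd Y ψ → Drv T R W t →
      Sit (FD ψ W t) σ ε ε' xc e ν r ℓ K → 0 ≤ ε → ε + 4 * e + 2 * ν ≤ κ → r + 16 * ℓ ≤ κ →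
      ∀ {s h₂ : ℝ} {e₁ : ℂ} {Km : Set ℂ}, a₀ ≤ s → s < 1 → s ≤ h → h₂ ≤ h / 4 →
      IsMk (Pm ℓ (Ug (FD ψ W t) σ ε ε' xc K)) (Ug (FD ψ W t) σ ε ε' xc K) (FD ψ W t) σ ν s ℓ h₂
        (FD ψ W t ((-1 + s : ℝ) : ℂ)) e₁ Km →
      ∀ {E G : Set ℂ} {a : ℂ}, Bmp ℓ (Pm ℓ (Ug (FD ψ W t) σ ε ε' xc K)) e₁ E G a →
      ∀ {Rb : ℝ}, Rd + 1 ≤ Rb → ∃ Q : Set ℂ, PF h ψ W t Y Rb Q E a := by
  obtain ⟨c, hc, hcls⟩ := cls_FD (T := T) (R := R) hRd hcd hY0 hY hY2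
  set ρ₁ : ℝ := max (1 - a₀) (ρb Y) with hρ₁
  have hρ₁1 : ρ₁ < 1 := max_lt (by linarith) (ρb_lt hY0)
  obtain ⟨δ₁, hδ₁, hins⟩ := Cls.inside (R := Rd) (c := c) hRd hc hρ₁1
  set h' : ℝ := min (h / 2) δ₁ with hh'
  have hh'0 : 0 < h' := by positivity
  have hh'1 : h' ≤ h / 2 := min_le_left _ _
  have hh'2 : h' ≤ δ₁ := min_le_right _ _
  obtain ⟨κ, hκ, hqt⟩ := qt_of (Rd := Rd) (ρ₀ := ρb Y) (h := h') hh'0 (ρb_lt hY0)
  refine ⟨min κ (min (h' / 32) 1), by positivity, ?_⟩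
  intro ι _ ψ W t σ ε ε' xc e ν r ℓ K hψ Hd H hε0 hsm hrℓ s h₂ e₁ Km has hs1 hsh hh₂ hK E G a hB
    Rb hRb
  have hκ1 : min κ (min (h' / 32) 1) ≤ κ := min_le_left _ _
  have hκ2 : min κ (min (h' / 32) 1) ≤ h' / 32 := (min_le_right _ _).trans (min_le_left _ _)
  have hκ3 : min κ (min (h' / 32) 1) ≤ 1 := (min_le_right _ _).trans (min_le_right _ _)
  set F : ℂ → ℂ := FD ψ W t with hF
  set U : Set ℂ := Ug F σ ε ε' xc K with hU
  set z₀ : ℂ := ψ (Y * Complex.I) with hz₀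
  have hs0 : 0 < s := ha.trans_le has
  have hℓ : 0 < ℓ := H.od.hℓ
  have hr : 0 ≤ r := H.od.hr
  have hℓ1 : 512 * ℓ ≤ h' := by linarith
  have hCl := hcls ψ hψ W t Hd
  have himg : F '' ball 0 1 = ψ '' loewnerDomain W t := FD_img Hd ψ
  have hsubHH : ψ '' loewnerDomain W t ⊆ ψ '' HH :=
    image_mono fun _ hz => Vale.Agent.P164.im_pos_of_dom Hd.nn hz
  obtain ⟨hbase, -, -, -⟩ := Hd.base hY0 hY hY2
  have hz₀D : z₀ ∈ ψ '' loewnerDomain W t := ⟨_, hbase, rfl⟩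
  have hdz₀ : dinv F z₀ = pos W t (Y * Complex.I) := dinv_FD Hd hψ.diff hψ.inj hbase
  have hpz₀ : ‖dinv F z₀‖ ≤ ρb Y := by
    rw [hdz₀]
    exact pos_base Hd hY0 hY hY2
  have hFz₀ : F (dinv F z₀) = z₀ := H.conf.apply_dinv (by rw [himg]; exact hz₀D)
  have hball : ∀ w ∈ closedBall (0 : ℂ) ρ₁, ball (F w) h' ⊆ F '' ball 0 1 := fun w hw =>
    (ball_subset_ball hh'2).trans (hins F hCl w hw)
  have hz₀m : dinv F z₀ ∈ closedBall (0 : ℂ) ρ₁ := by
    rw [mem_closedBall_zero_iff]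
    exact hpz₀.trans (le_max_right _ _)
  have hball₀ : ball z₀ h' ⊆ F '' ball 0 1 := by
    have := hball _ hz₀m
    rwa [hFz₀] at this
  have hdiam : ∀ z ∈ F '' ball 0 1, ∀ z' ∈ F '' ball 0 1, dist z z' ≤ Rd := by
    intro z hz z' hz'
    rw [himg] at hz hz'
    obtain ⟨u, hu, rfl⟩ := hsubHH hz
    obtain ⟨u', hu', rfl⟩ := hsubHH hz'
    rw [dist_eq_norm]
    exact hψ.bdd u hu u' hu'
  obtain ⟨F₀, hF₀⟩ := exists_sqr hℓ z₀
  obtain ⟨hg, q1, q2, q3, q4, q5, q6⟩ := hqt H hε0 hdiam (by linarith) (by linarith) z₀ hball₀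
    hpz₀ F₀ hF₀
  set Q : Set ℂ := Qt ℓ (h' / 16) U F₀ with hQ
  set PM : Set ℂ := Pm ℓ U with hPM
  have hR16 : 0 < h' / 16 := by positivity
  have hQP : Q ⊆ PM := H.od.Qt_sub_Pm hR16 hg
  have hUD : U ⊆ F '' ball 0 1 := H.sub
  have he₁ : e₁ ∉ PM := fun hmem =>
    (disjoint_frontier_iff_isOpen.2 isOpen_Pm).le_bot ⟨hK.fr, hmem⟩
  have hGe : ∀ z ∈ G, dist z e₁ ≤ 3 * ℓ := fun z hz => hB.diam z hz e₁ hB.e_mem
  have hGQ : Disjoint G Q := by
    rw [Set.disjoint_left]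
    intro z hzG hzQ
    refine he₁ (H.od.margin_Q hR16 hg hzQ ?_)
    rw [mem_ball, dist_comm]
    have := hGe z hzG
    linarith
  have haE : a ∉ E := fun hmem =>
    (disjoint_frontier_iff_isOpen.2 hB.goodE.isOpen).le_bot ⟨hB.a_fr, hmem⟩
  have hbP : IsBounded PM := H.od.isBounded_Pm
  have hpcP : IsPreconnected PMᶜ := H.od.pc_Pm
  refine ⟨Q, ?_⟩
  constructor
  · exact H.od.good_Qt hR16 hg
  · exact hB.goodE
  · rw [← himg]
    exact q5.trans hUD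
  · exact hQP.trans hB.sub
  · -- bounded
    have hfr : ∀ y ∈ frontier PM, dist y z₀ ≤ Rd + 3 * ℓ := by
      intro y hy
      obtain ⟨⟨G', hG', hyG⟩, -⟩ := frontier_Pm hℓ hy
      obtain ⟨u, hu, huU⟩ := hG'
      have h1 : dist y u ≤ 3 * ℓ := dist_le_of_bk (sqr_subset_bk hℓ hyG) hu
      have h2 := hdiam u (hUD huU) z₀ (by rw [himg]; exact hz₀D)
      have h3 := dist_triangle y u z₀
      linarith
    have hfrE : ∀ y ∈ frontier E, dist y z₀ ≤ Rd + 6 * ℓ := by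
      intro y hy
      rcases hB.fr y hy with h1 | h1
      · have := hfr y h1
        linarith
      · have h2 := hGe y h1
        have h3 := hfr e₁ hK.fr
        have h4 := dist_triangle y e₁ z₀
        linarith
    intro z hz
    have h1 := bdd_of_frontier hB.goodE.bdd (by linarith) hfrE z hz
    rw [dist_eq_norm] at h1
    have h2 : 16 * ℓ ≤ 1 := by linarith
    linarith
  · rw [← himg]
    exact q1.mono (by linarith)
  · rw [← himg]
    exact q2.mono (by linarith)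
  · exact inner_of hbP hpcP hB.sup hB.diam (by linarith) hh (q3.mono hh'1)
  · exact collar_of hB.sup hB.diam hB.conv (by linarith) hGQ hB.a_mem haE hh (q4.mono hh'1)
  · exact hB.a_fr
  · -- the mark
    have hx₀Q : F ((-1 + s : ℝ) : ℂ) ∈ Q := by
      refine q1 (F '' closedBall 0 ρ₁) ?_ ?_ ?_ (mem_image_of_mem _ ?_)
      · exact (convex_closedBall (0 : ℂ) ρ₁).isPreconnected.image _
          (hCl.diff.continuousOn.mono (closedBall_subset_ball hρ₁1))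
      · rw [← hFz₀]
        exact mem_image_of_mem _ hz₀m
      · rintro _ ⟨w, hw, rfl⟩
        exact hball w hw
      · rw [mem_closedBall_zero_iff, Complex.norm_real, Real.norm_eq_abs,
          abs_of_nonpos (by linarith)]
        refine le_trans ?_ (le_max_left _ _)
        linarith
    have hx₀P := hQP hx₀Q
    have hne : F ((-1 + s : ℝ) : ℂ) ≠ e₁ := fun h0 => he₁ (h0 ▸ hx₀P)
    have hCsub : Km \ {e₁} ⊆ PM := by
      rintro z ⟨hz, hz'⟩
      rcases hK.sub hz with h0 | h0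
      · exact absurd h0 hz'
      · exact h0
    obtain ⟨C', c1, c2, c3, c4, c5⟩ := hB.rch (Km \ {e₁}) hCsub hK.conn' hK.cl
    have hsmall : ∀ z ∈ C', dist z (F ((-1 + s : ℝ) : ℂ)) ≤ h / 4 + 6 * ℓ := by
      intro z hz
      have h1 := hK.small hK.e_mem
      rw [mem_closedBall] at h1
      rcases c4 _ hz with h2 | h2
      · have h3 := hK.small h2.1
        rw [mem_closedBall] at h3
        linarith
      · have h3 := dist_triangle z e₁ (F ((-1 + s : ℝ) : ℂ))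
        linarith
    refine ⟨C', c1, c2, c5, ?_, ?_⟩
    · intro u hu v hv
      have h1 := hsmall u hu
      have h2 := hsmall v hv
      rw [dist_comm] at h2
      have h3 := dist_triangle u (F ((-1 + s : ℝ) : ℂ)) v
      linarith
    · obtain ⟨z, hz, hzw, hzn⟩ := zf_mark Hd hψ.diff hψ.inj hs0 hs1
      exact ⟨F ((-1 + s : ℝ) : ℂ), c3 ⟨hK.x₀_mem, hne⟩, hx₀Q, ⟨z, ⟨hz, hzn.trans_le hsh⟩, hzw⟩⟩

end Vale.Agent.P167.H756.PFG
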