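import Vale.Agent.P167.H756.PF.Shape
import Vale.Agent.P167.H446.G.Arith

/-!
# P167, general `q`, [PF]: the frames

`pf_frame`: the first clause of `ClS` from `pf_of`; `pf_sat`: from the data `Sat` of a history.
-/

set_option autoImplicit false

open Set Topology Metric Filter Bornology
open scoped ComplexConjugate

namespace Vale.Agent.P167.H756.PFG

open Vale.Agent.P153.R2.R1 (Good Conf dinv mb imb)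
open Vale.Agent.P153.R2.L1 (HH)
open Vale.Agent.P164 (loewnerDomain gf Zf)
open Vale.Agent.P167.H756 (PF Inner Collar Cls FD FD_mb FD_img HConf Drv cls_FD)
open Vale.Agent.P167.SG Vale.Agent.P167.H450 Vale.Agent.P167.H450.Out
open Vale.Agent.P167.H632G (ShD tau)
open Vale.Agent.P167.H446.G (emb ea psr vd Ku)
open Vale.Agent.P167.QT (Sh4)
open Vale.Agent.P167.E6 (pt)

/-- **The two frames.** -/
theorem psr_vd {n : ℕ} (p : ZMod n → ℤ × ℤ) (k : ℕ) (L s δ : ℝ) (ψ : ℂ → ℂ) {v₁ : ℤ × ℤ}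
    (hv : v₁ = ((vd p k L s δ).1 + ((Ku L s : ℤ) - 2) * (H446.G.Nn s δ : ℤ), (vd p k L s δ).2)) :
    psr δ (vd p k L s δ) ψ =
      fun z => psr δ v₁ ψ z + tau (5 * (H446.G.dl δ * H446.G.Nn s δ)) (Ku L s) := by
  funext z
  unfold psr tau
  rw [hv]
  have e : (5 : ℝ) * (H446.G.dl δ * H446.G.Nn s δ) / 5 = H446.G.dl δ * H446.G.Nn s δ := by ring
  rw [e]
  apply Complex.ext
  · simp only [Complex.add_re, Complex.neg_re, Complex.mul_re, Complex.ofReal_re,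
      Complex.ofReal_im, pt]
    push_cast
    ring
  · simp only [Complex.add_im, Complex.neg_im, Complex.mul_im, Complex.ofReal_re,
      Complex.ofReal_im, pt]
    push_cast
    ring

variable {T R Rd cd Y h a₀ : ℝ}

/-- **The first clause of `ClS`.** -/
theorem pf_frame (hRd : 0 < Rd) (hcd : 0 < cd) (hY0 : 0 < Y) (hY : 8 * R ≤ Y)
    (hY2 : 64 * T ≤ Y ^ 2) (hh : 0 < h) (ha : 0 < a₀) :
    ∃ κ > 0, ∀ {ι : Type} [Finite ι] {n k : ℕ} {p : ZMod n → ℤ × ℤ} {L s δ : ℝ} {ψn : ℂ → ℂ}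
      {v₁ : ℤ × ℤ} {W : ℝ → ℝ} {t σ ε ε' xc e ν r ℓ : ℝ} {K : ι → Set ℂ} {ψ : ℂ → ℂ},
      v₁ = ((vd p k L s δ).1 + ((Ku L s : ℤ) - 2) * (H446.G.Nn s δ : ℤ), (vd p k L s δ).2) →
      ψ = psr δ v₁ ψn → ℓ = 5 * (H446.G.dl δ * H446.G.Nn s δ) → HConf Rd cd Y ψ → Drv T R W t →
      Sit (FD ψ W t) σ ε ε' xc e ν r ℓ K → 0 ≤ ε → ε + 4 * e + 2 * ν ≤ κ → r + 16 * ℓ ≤ κ →
      ∀ {sm h₂ : ℝ} {e₁ : ℂ} {Km : Set ℂ}, a₀ ≤ sm → sm < 1 → sm ≤ h → h₂ ≤ h / 4 →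
      IsMk (Pm ℓ (Ug (FD ψ W t) σ ε ε' xc K)) (Ug (FD ψ W t) σ ε ε' xc K) (FD ψ W t) σ ν sm ℓ h₂
        (FD ψ W t ((-1 + sm : ℝ) : ℂ)) e₁ Km →
      ∀ {te : ℝ} {m : ℕ} {q : ZMod m → ℤ × ℤ} {S Bm : Finset (ℤ × ℤ)} {i x : ℕ} {P : Sh4},
      ShD ℓ (Pm ℓ (Ug (FD ψ W t) σ ε ε' xc K)) e₁ te (Ku L s) q S Bm i x P →
      ∀ {Rb : ℝ}, Rd + 1 ≤ Rb →
      ∃ Q : Set ℂ, PF h (psr δ (vd p k L s δ) ψn) W t Y Rb Q (emb (H446.G.dl δ * H446.G.Nn s δ) P)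
        (ea (H446.G.dl δ * H446.G.Nn s δ) P) := by
  obtain ⟨κ, hκ, H⟩ := pf_of (T := T) (R := R) (Y := Y) hRd hcd hY0 hY hY2 hh ha
  refine ⟨κ, hκ, ?_⟩
  intro ι _ n k p L s δ ψn v₁ W t σ ε ε' xc e ν r ℓ K ψ hve hψe hℓe hψ Hd HS hε hsm hrℓ sm h₂ e₁ Km has
    hs1 hsh hh₂ hK te m q S Bm i x P hSh Rb hRb
  have h1 := H hψ Hd HS hε hsm hrℓ has hs1 hsh hh₂ hK hSh hRb
  have e : ℓ / 5 = H446.G.dl δ * H446.G.Nn s δ := by rw [hℓe]; ring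
  rw [e, hψe, hℓe, ← psr_vd p k L s δ ψn hve] at h1
  exact h1

/-- **The first clause of `ClS`**, from the data of a history. -/
theorem pf_sat (hRd : 0 < Rd) (hcd : 0 < cd) (hY0 : 0 < Y) (hY : 8 * R ≤ Y)
    (hY2 : 64 * T ≤ Y ^ 2) (hh : 0 < h) (ha : 0 < a₀) :
    ∃ κ > 0, ∀ {ι : Type} [Finite ι] {n k : ℕ} {p : ZMod n → ℤ × ℤ} {L s d : ℝ} {ψn : ℂ → ℂ}
      {v₁ : ℤ × ℤ}
      {x3 xB τ κ' x' xc ε η e ν X1 X3 : ℝ} {ψ : ℂ → ℂ} {W : ℝ → ℝ}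
      {t σ xb rf cg δ r₀ ρ r' ℓ s₂ : ℝ} {Gt IN : Set ℂ} {x₁ tp : ℂ} {K : ι → Set ℂ},
      v₁ = ((vd p k L s d).1 + ((Ku L s : ℤ) - 2) * (H446.G.Nn s d : ℤ), (vd p k L s d).2) →
      ψ = psr d v₁ ψn → ℓ = 5 * (H446.G.dl d * H446.G.Nn s d) → HConf Rd cd Y ψ →
      Sat T R x3 xB τ κ' x' xc ε η e ν X1 X3 ψ W t σ xb rf cg δ r₀ ρ r' ℓ s₂ Gt IN x₁ tp K →
      ε + 4 * e + 2 * ν ≤ κ → 2 * r₀ + 16 * ℓ ≤ κ →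
      ∀ {sm h₂ : ℝ} {e₁ : ℂ} {Km : Set ℂ}, a₀ ≤ sm → sm < 1 → sm ≤ h → h₂ ≤ h / 4 →
      IsMk (Pm ℓ (Ug (FD ψ W t) σ ε (τ / 2) xc (fun i => dinv (FD ψ W t) '' K i)))
        (Ug (FD ψ W t) σ ε (τ / 2) xc (fun i => dinv (FD ψ W t) '' K i)) (FD ψ W t) σ ν sm ℓ h₂
        (FD ψ W t ((-1 + sm : ℝ) : ℂ)) e₁ Km →
      ∀ {te : ℝ} {m : ℕ} {q : ZMod m → ℤ × ℤ} {S Bm : Finset (ℤ × ℤ)} {i x : ℕ} {P : Sh4},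
      ShD ℓ (Pm ℓ (Ug (FD ψ W t) σ ε (τ / 2) xc (fun i => dinv (FD ψ W t) '' K i))) e₁ te (Ku L s)
        q S Bm i x P →
      ∀ {Rb : ℝ}, Rd + 1 ≤ Rb →
      ∃ Q : Set ℂ, PF h (psr d (vd p k L s d) ψn) W t Y Rb Q (emb (H446.G.dl d * H446.G.Nn s d) P)
        (ea (H446.G.dl d * H446.G.Nn s d) P) := by
  obtain ⟨κ, hκ, H⟩ := pf_frame (T := T) (R := R) (Y := Y) hRd hcd hY0 hY hY2 hh ha
  refine ⟨κ, hκ, ?_⟩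
  intro ι _ n k p L s d ψn v₁ x3 xB τ κ' x' xc ε η e ν X1 X3 ψ W t σ xb rf cg δ r₀ ρ r' ℓ s₂ Gt IN x₁
    tp K hve hψe hℓe hψ HS hsm hrℓ sm h₂ e₁ Km has hs1 hsh hh₂ hK te m q S Bm i x P hSh Rb hRb
  exact H hve hψe hℓe hψ HS.drv HS.sit HS.cst.hε.le hsm hrℓ has hs1 hsh hh₂ hK hSh hRb

end Vale.Agent.P167.H756.PFG
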