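import Vale.Agent.P167.H756.PF.Tr

/-!
# P167, general `q`, [PF]: a polygon with a bump

`E` is an open set with `P ⊆ E`, `E ⊆ P ∪ G`, where `G` is convex, closed and small. `Inner` and
`Collar` pass from `P` to `E`.
-/

set_option autoImplicit false

open Set Topology Metric Filter Bornology
open scoped ComplexConjugate

namespace Vale.Agent.P167.H756.PFG

open Vale.Agent.P167.H756 (Inner Collar)
open Vale.Agent.P167.H450.Out (collar_iff)

variable {P E G Q C D : Set ℂ} {z₀ : ℂ} {h d : ℝ}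

/-- A connected set which meets a set and its complement meets the boundary. -/
theorem meet_frontier {X : Type*} [TopologicalSpace X] {S P : Set X} (hS : IsPreconnected S)
    (h1 : (S ∩ P).Nonempty) (h2 : (S ∩ Pᶜ).Nonempty) : (S ∩ frontier P).Nonempty := by
  by_contra hcon
  have hno : ∀ x ∈ S, x ∉ frontier P := fun x hx hf => hcon ⟨x, hx, hf⟩
  obtain ⟨a, haS, haP⟩ := h1
  obtain ⟨b, hbS, hbP⟩ := h2
  have key : ∀ x ∈ S, x ∈ interior P ∨ x ∉ closure P := by
    intro x hx
    by_cases h : x ∈ interior P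
    · exact Or.inl h
    · exact Or.inr fun hc => hno x hx ⟨hc, h⟩
  obtain ⟨x, -, hx1, hx2⟩ := hS (interior P) (closure P)ᶜ isOpen_interior
    isClosed_closure.isOpen_compl key
    ⟨a, haS, (key a haS).resolve_right fun h => h (subset_closure haP)⟩
    ⟨b, hbS, (key b hbS).resolve_left fun h => hbP (interior_subset h)⟩
  exact hx2 (interior_subset_closure hx1)

/-- A bounded set with its boundary in a disc. -/
theorem bdd_of_frontier (hb : IsBounded P) {c : ℂ} {ρ : ℝ} (hρ : 0 ≤ ρ)
    (hf : ∀ y ∈ frontier P, dist y c ≤ ρ) : ∀ z ∈ P, dist z c ≤ ρ := by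
  intro z hz
  by_contra hcon
  push Not at hcon
  have hzc : 0 < dist z c := hρ.trans_lt hcon
  set S : Set ℂ := (fun t : ℝ => z + (t : ℂ) * (z - c)) '' Ici 0 with hS
  have hSc : IsPreconnected S := (convex_Ici (0 : ℝ)).isPreconnected.image _ (by fun_prop)
  have hdist : ∀ t : ℝ, 0 ≤ t → dist (z + (t : ℂ) * (z - c)) c = (1 + t) * dist z c := by
    intro t ht
    rw [dist_eq_norm, dist_eq_norm, show z + (t : ℂ) * (z - c) - c = ((1 + t : ℝ) : ℂ) * (z - c) by
      push_cast; ring, norm_mul, Complex.norm_real, Real.norm_of_nonneg (by linarith)]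
  obtain ⟨M, hM⟩ := hb.subset_closedBall c
  have h1 : (S ∩ P).Nonempty := ⟨z, ⟨0, by simp, by simp⟩, hz⟩
  have h2 : (S ∩ Pᶜ).Nonempty := by
    refine ⟨_, ⟨|M| / dist z c, by simp only [mem_Ici]; positivity, rfl⟩, fun hmem => ?_⟩
    have h3 := hM hmem
    rw [mem_closedBall, hdist _ (by positivity), add_mul, one_mul, div_mul_cancel₀ _ hzc.ne'] at h3
    have := le_abs_self M
    linarith
  obtain ⟨y, ⟨t, ht, rfl⟩, hy⟩ := meet_frontier hSc h1 h2
  have h3 := hf _ hy
  rw [hdist t ht] at h3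
  have : dist z c ≤ (1 + t) * dist z c := by
    have ht' : (0 : ℝ) ≤ t := ht
    nlinarith
  linarith

/-- A ball in `E` gives a smaller ball in `P`. -/
theorem ball_sub_of (hb : IsBounded P) (hpc : IsPreconnected Pᶜ)
    (hEG : ∀ z ∈ E, z ∈ P ∨ z ∈ G) (hG : ∀ z ∈ G, ∀ w ∈ G, dist z w ≤ d) (hd : 8 * d ≤ h)
    (hh : 0 < h) {z : ℂ} (hz : ball z h ⊆ E) : ball z (h / 2) ⊆ P := by
  by_cases hne : (G ∩ ball z (h / 2)).Nonempty
  · obtain ⟨g, hg, hgz⟩ := hne
    have hGs : ∀ w ∈ G, dist w z ≤ 3 * h / 4 := by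
      intro w hw
      have h1 := hG w hw g hg
      have h2 := dist_triangle w g z
      rw [mem_ball] at hgz
      linarith
    have hcov : Pᶜ ⊆ ball z (7 * h / 8) ∪ (closedBall z (3 * h / 4))ᶜ := by
      intro w _
      by_cases hw : dist w z < 7 * h / 8
      · exact Or.inl hw
      · right
        intro hw2
        rw [mem_closedBall] at hw2
        linarith
    have hsep : ¬ (Pᶜ ∩ (ball z (7 * h / 8) ∩ (closedBall z (3 * h / 4))ᶜ)).Nonempty := by
      rintro ⟨w, hwP, hw1, hw2⟩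
      rw [mem_ball] at hw1
      have hwE : w ∈ E := hz (by rw [mem_ball]; linarith)
      rcases hEG w hwE with h3 | h3
      · exact hwP h3
      · exact hw2 (mem_closedBall.2 (hGs w h3))
    have hout : (Pᶜ ∩ (closedBall z (3 * h / 4))ᶜ).Nonempty := by
      obtain ⟨M, hM⟩ := hb.subset_closedBall z
      refine ⟨z + ((|M| + h : ℝ) : ℂ), fun hmem => ?_, fun hmem => ?_⟩
      · have h3 := hM hmem
        rw [mem_closedBall, dist_eq_norm, add_sub_cancel_left, Complex.norm_real,
          Real.norm_of_nonneg (by positivity)] at h3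
        have := le_abs_self M
        linarith
      · rw [mem_closedBall, dist_eq_norm, add_sub_cancel_left, Complex.norm_real,
          Real.norm_of_nonneg (by positivity)] at hmem
        have := abs_nonneg M
        linarith
    intro w hw
    by_contra hwP
    refine hsep (hpc _ _ isOpen_ball isClosed_closedBall.isOpen_compl hcov
      ⟨w, hwP, ?_⟩ hout)
    rw [mem_ball] at hw ⊢
    linarith
  · intro w hw
    have hwE : w ∈ E := hz (ball_subset_ball (by linarith) hw)
    rcases hEG w hwE with h3 | h3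
    · exact h3
    · exact absurd ⟨w, h3, hw⟩ hne

theorem inner_of (hb : IsBounded P) (hpc : IsPreconnected Pᶜ)
    (hEG : ∀ z ∈ E, z ∈ P ∨ z ∈ G) (hG : ∀ z ∈ G, ∀ w ∈ G, dist z w ≤ d) (hd : 8 * d ≤ h)
    (hh : 0 < h) (H : Inner P Q z₀ (h / 2)) : Inner E Q z₀ h :=
  fun C hC hz hball => H C hC hz fun z hzC => ball_sub_of hb hpc hEG hG hd hh (hball z hzC)

theorem collar_of (hEG : ∀ z ∈ E, z ∈ P ∨ z ∈ G) (hG : ∀ z ∈ G, ∀ w ∈ G, dist z w ≤ d)
    (hconv : Convex ℝ G) (hd : 8 * d ≤ h) (hGQ : Disjoint G Q) {a : ℂ} (haG : a ∈ G) (haE : a ∉ E)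
    (hh : 0 < h) (H : Collar P Q (h / 2)) : Collar E Q h := by
  rw [collar_iff] at H ⊢
  intro y hy
  obtain ⟨k, hk, hj⟩ := H y hy
  have hj' : JoinedIn (Qᶜ ∩ closedBall y h) y k :=
    hj.mono (inter_subset_inter_right _ (closedBall_subset_closedBall (by linarith)))
  by_cases hkE : k ∈ E
  · have hkG : k ∈ G := (hEG k hkE).resolve_left hk
    refine ⟨a, haE, hj'.trans ?_⟩
    refine JoinedIn.mono (((hconv.segment_subset hkG haG) |> fun hs =>
      (((convex_segment k a).isPathConnected ⟨k, left_mem_segment ℝ k a⟩).joinedIn k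
        (left_mem_segment ℝ k a) a (right_mem_segment ℝ k a)).mono hs)) ?_
    intro w hw
    refine ⟨fun hwQ => Set.disjoint_left.1 hGQ hw hwQ, ?_⟩
    have h1 := hG w hw k hkG
    have h2 := hj.target_mem.2
    rw [mem_closedBall] at h2 ⊢
    have h3 := dist_triangle w k y
    have h4 : 0 ≤ d := dist_nonneg.trans h1
    linarith
  · exact ⟨k, hkE, hj'⟩

end Vale.Agent.P167.H756.PFG
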