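import Vale.Agent.P167.H756.PF.Core
import Vale.Agent.P167.H632.G.ShH

/-!
# P167, general `q`, [PF]: the conditions `PF` for the shapes

`bmp_of`: the shape (translated back) is the outer polygon with a bump. `pf_of`: the sandwich
conditions for the shape.
-/

set_option autoImplicit false

open Set Topology Metric Filter Bornology
open scoped ComplexConjugate

namespace Vale.Agent.P167.H756.PFG

open Vale.Agent.P153.R2.R1 (Good Conf dinv mb imb)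
open Vale.Agent.P153.R2.L1 (HH)
open Vale.Agent.P164 (loewnerDomain gf Zf)
open Vale.Agent.P167.H756 (PF Inner Collar Cls FD FD_mb FD_img HConf Drv cls_FD)
open Vale.Agent.P167.SG Vale.Agent.P167.H450 Vale.Agent.P167.H450.Out
open Vale.Agent.P167.H632G (ShD tau)
open Vale.Agent.P167.H450.ShpL (Gf)
open Vale.Agent.P167.H446.G (emb ea)
open Vale.Agent.P167.QT (Sh4)
open Vale.Agent.P167.E6 (good_D6)

variable {T R Rd cd Y h a₀ : ℝ} {W : ℝ → ℝ} {t : ℝ} {ψ : ℂ → ℂ}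

theorem convex_sqr (ℓ : ℝ) (F : ℤ × ℤ) : Convex ℝ (sqr ℓ F) := by
  intro z hz w hw s t hs ht hst
  obtain ⟨h1, h2, h3, h4⟩ := hz
  obtain ⟨g1, g2, g3, g4⟩ := hw
  have hs' : s = 1 - t := by linarith
  refine ⟨?_, ?_, ?_, ?_⟩ <;>
    simp only [Complex.add_re, Complex.add_im, Complex.smul_re, Complex.smul_im, smul_eq_mul] <;>
    rw [hs'] <;> nlinarith

/-- **The shape is the outer polygon with a bump.** -/
theorem bmp_of {ℓ : ℝ} {PM : Set ℂ} {e₁ : ℂ} {te : ℝ} {Kd n : ℕ} {p : ZMod n → ℤ × ℤ}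
    {S Bm : Finset (ℤ × ℤ)} {i x : ℕ} {P : Sh4} (h : ShD ℓ PM e₁ te Kd p S Bm i x P) :
    Bmp ℓ PM e₁ (tr (-tau ℓ Kd) '' emb (ℓ / 5) P) (sqr ℓ (Gf p i)) (ea (ℓ / 5) P - tau ℓ Kd) := by
  have hℓ := h.hℓ
  have hu := h.hu
  have hgE : Good (emb (ℓ / 5) P) := good_D6 hu h.polyP h.enclP
  have hmem : ∀ z, z ∈ tr (-tau ℓ Kd) '' emb (ℓ / 5) P ↔ z + tau ℓ Kd ∈ emb (ℓ / 5) P := by
    intro z
    rw [mem_tr, sub_neg_eq_add]
  constructor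
  · exact good_tr hgE _
  · exact fun z hz => (hmem z).2 (h.sub hz)
  · exact fun z hz => h.sup' ((hmem z).1 hz)
  · intro z hz
    rw [← (tr (-tau ℓ Kd)).image_frontier, mem_tr, sub_neg_eq_add] at hz
    exact h.fr hz
  · exact convex_sqr _ _
  · exact fun z hz w hw => dist_le_of_bk (sqr_subset_bk hℓ hz) (sqr_subset_bk hℓ hw)
  · exact h.mem_e
  · obtain ⟨a, haG, ha⟩ := h.ea_mem
    rw [ha, add_sub_cancel_right]
    exact haG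
  · rw [← (tr (-tau ℓ Kd)).image_frontier, mem_tr, sub_neg_eq_add, sub_add_cancel]
    exact h.ea_fr
  · intro C hC hCc he
    obtain ⟨C', c1, c2, c3, c4, c5⟩ := h.rch6 C hC hCc he
    refine ⟨tr (-tau ℓ Kd) '' C', image_mono c1,
      c2.image _ (tr (-tau ℓ Kd)).continuous.continuousOn, ?_, ?_, ?_⟩
    · intro z hz
      rw [mem_tr, sub_neg_eq_add]
      exact c3 z hz
    · intro z hz
      rw [mem_tr, sub_neg_eq_add] at hz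
      have := c4 _ hz
      rwa [add_sub_cancel_right] at this
    · rw [← (tr (-tau ℓ Kd)).image_closure, mem_tr, sub_neg_eq_add, sub_add_cancel]
      exact c5

/-- **The conditions of the sandwich for a shape.** -/
theorem pf_of (hRd : 0 < Rd) (hcd : 0 < cd) (hY0 : 0 < Y) (hY : 8 * R ≤ Y)
    (hY2 : 64 * T ≤ Y ^ 2) (hh : 0 < h) (ha : 0 < a₀) :
    ∃ κ > 0, ∀ {ι : Type} [Finite ι] {ψ : ℂ → ℂ} {W : ℝ → ℝ} {t σ ε ε' xc e ν r ℓ : ℝ}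
      {K : ι → Set ℂ}, HConf Rd cd Y ψ → Drv T R W t →
      Sit (FD ψ W t) σ ε ε' xc e ν r ℓ K → 0 ≤ ε → ε + 4 * e + 2 * ν ≤ κ → r + 16 * ℓ ≤ κ →
      ∀ {s h₂ : ℝ} {e₁ : ℂ} {Km : Set ℂ}, a₀ ≤ s → s < 1 → s ≤ h → h₂ ≤ h / 4 →
      IsMk (Pm ℓ (Ug (FD ψ W t) σ ε ε' xc K)) (Ug (FD ψ W t) σ ε ε' xc K) (FD ψ W t) σ ν s ℓ h₂
        (FD ψ W t ((-1 + s : ℝ) : ℂ)) e₁ Km →
      ∀ {te : ℝ} {Kd n : ℕ} {p : ZMod n → ℤ × ℤ} {S Bm : Finset (ℤ × ℤ)} {i x : ℕ} {P : Sh4},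
      ShD ℓ (Pm ℓ (Ug (FD ψ W t) σ ε ε' xc K)) e₁ te Kd p S Bm i x P →
      ∀ {Rb : ℝ}, Rd + 1 ≤ Rb →
      ∃ Q : Set ℂ, PF h (fun z => ψ z + tau ℓ Kd) W t Y Rb Q (emb (ℓ / 5) P) (ea (ℓ / 5) P) := by
  obtain ⟨κ, hκ, H⟩ := pf_abs (T := T) (R := R) (Y := Y) hRd hcd hY0 hY hY2 hh ha
  refine ⟨κ, hκ, ?_⟩
  intro ι _ ψ W t σ ε ε' xc e ν r ℓ K hψ Hd HS hε0 hsm hrℓ s h₂ e₁ Km has hs1 hsh hh₂ hK te Kd n p S
    Bm i x P hSh Rb hRb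
  obtain ⟨Q, hQ⟩ := H hψ Hd HS hε0 hsm hrℓ has hs1 hsh hh₂ hK (bmp_of hSh) hRb
  refine ⟨tr (tau ℓ Kd) '' Q, ?_⟩
  have h1 := hQ.add (tau ℓ Kd)
  have e1 : tr (tau ℓ Kd) '' (tr (-tau ℓ Kd) '' emb (ℓ / 5) P) = emb (ℓ / 5) P := by
    ext z
    rw [mem_tr, mem_tr, sub_neg_eq_add, sub_add_cancel]
  rw [e1, sub_add_cancel] at h1
  exact h1

end Vale.Agent.P167.H756.PFG
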