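import Vale.Agent.P167.H756.S8
import Vale.Agent.P167.H450.OutQ

/-!
# P167, general `q`, [PF]: translations

`PF.add`: the conditions `PF` are invariant under translations.
-/

set_option autoImplicit false

open Set Topology Metric Filter Bornology
open scoped ComplexConjugate

namespace Vale.Agent.P167.H756.PFG

open Vale.Agent.P153.R2.R1 (Good LC NoCut Ctrl)
open Vale.Agent.P164 (loewnerDomain gf Zf)
open Vale.Agent.P167.H756 (PF Inner Collar)

variable {τ z₀ : ℂ} {D Q P C : Set ℂ} {h : ℝ}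

/-- The translation. -/
noncomputable def tr (τ : ℂ) : ℂ ≃ₜ ℂ := Homeomorph.addRight τ

@[simp] theorem tr_apply (τ z : ℂ) : tr τ z = z + τ := rfl

theorem mem_tr {z : ℂ} : z ∈ tr τ '' D ↔ z - τ ∈ D := by
  constructor
  · rintro ⟨w, hw, rfl⟩
    simpa using hw
  · intro h
    exact ⟨z - τ, h, by simp⟩

theorem dist_tr (τ z w : ℂ) : dist (tr τ z) (tr τ w) = dist z w := by
  simp

theorem ball_tr {z : ℂ} {r : ℝ} : ball z r ⊆ tr τ '' D ↔ ball (z - τ) r ⊆ D := by
  constructor
  · intro h w hw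
    have h1 : w + τ ∈ ball z r := by
      rw [mem_ball, dist_eq_norm] at hw ⊢
      rwa [show w + τ - z = w - (z - τ) by ring]
    have h2 := mem_tr.1 (h h1)
    simpa using h2
  · intro h w hw
    rw [mem_tr]
    apply h
    rw [mem_ball, dist_eq_norm] at hw ⊢
    rwa [show w - τ - (z - τ) = w - z by ring]

theorem good_tr (h : Good D) (τ : ℂ) : Good (tr τ '' D) where
  isOpen := (tr τ).isOpenMap _ h.isOpen
  rdom := by
    refine ⟨h.rdom.conn.image _ (tr τ).continuous.continuousOn, ?_⟩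
    intro g hg h0
    have h1 : ContinuousOn (fun z => g (z + τ)) D := by
      refine hg.comp (continuous_add_const τ).continuousOn ?_
      intro z hz
      exact ⟨z, hz, rfl⟩
    obtain ⟨f, hf, hf'⟩ := h.rdom.log (fun z => g (z + τ)) h1 fun z hz => h0 _ ⟨z, hz, rfl⟩
    refine ⟨fun z => f (z - τ), ?_, ?_⟩
    · refine hf.comp (continuous_sub_right τ).continuousOn ?_
      intro z hz
      exact mem_tr.1 hz
    · intro z hz
      have := hf' (z - τ) (mem_tr.1 hz)
      simpa using this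
  bdd := by
    obtain ⟨M, hM⟩ := h.bdd.subset_closedBall 0
    refine (isBounded_closedBall (x := τ) (r := M)).subset ?_
    intro z hz
    have h1 := hM (mem_tr.1 hz)
    rw [mem_closedBall, dist_zero_right] at h1
    rwa [mem_closedBall, dist_eq_norm]
  lc := by
    intro ε hε
    obtain ⟨η, hη, hc⟩ := h.lc ε hε
    refine ⟨η, hη, ?_⟩
    intro p hp
    rw [← (tr τ).image_frontier] at hp
    obtain ⟨J, h1, h2, h3, h4, h5⟩ := hc (p - τ) (mem_tr.1 hp)
    refine ⟨tr τ '' J, h1.image (tr τ).continuous, h2.image _ (tr τ).continuous.continuousOn, ?_,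
      ?_, ?_⟩
    · rw [← (tr τ).image_frontier]
      exact image_mono h3
    · rintro z ⟨hz1, hz2⟩
      rw [← (tr τ).image_frontier] at hz1
      rw [mem_tr]
      apply h4
      refine ⟨mem_tr.1 hz1, ?_⟩
      rw [mem_closedBall, dist_eq_norm] at hz2 ⊢
      rwa [show z - τ - (p - τ) = z - p by ring]
    · intro z hz
      have h6 := h5 (mem_tr.1 hz)
      rw [mem_closedBall, dist_eq_norm] at h6 ⊢
      rwa [show z - τ - (p - τ) = z - p by ring] at h6
  nocut := by
    intro p hp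
    rw [← (tr τ).image_frontier] at hp ⊢
    have h1 := h.nocut (p - τ) (mem_tr.1 hp)
    have h2 : tr τ '' frontier D \ {p} = tr τ '' (frontier D \ {p - τ}) := by
      ext z
      rw [Set.mem_sdiff, mem_tr, mem_tr, Set.mem_sdiff, mem_singleton_iff, mem_singleton_iff, sub_left_inj]
    rw [h2]
    exact h1.image _ (tr τ).continuous.continuousOn

theorem inner_tr (H : Inner D Q z₀ h) (τ : ℂ) : Inner (tr τ '' D) (tr τ '' Q) (z₀ + τ) h := by
  intro C hC hz hb z hzC
  rw [mem_tr]
  have h1 : IsPreconnected (tr (-τ) '' C) := hC.image _ (tr (-τ)).continuous.continuousOn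
  refine H (tr (-τ) '' C) h1 ⟨_, hz, by simp⟩ ?_ ⟨z, hzC, by simp [sub_eq_add_neg]⟩
  rintro _ ⟨w, hw, rfl⟩
  have := ball_tr.1 (hb w hw)
  simpa [sub_eq_add_neg] using this

theorem collar_tr (H : Collar D Q h) (τ : ℂ) : Collar (tr τ '' D) (tr τ '' Q) h := by
  intro y hy
  rw [← (tr τ).image_frontier] at hy
  obtain ⟨y, hy, rfl⟩ := hy
  obtain ⟨g, h1, h2, h3, h4⟩ := H y hy
  refine ⟨fun t => g t + τ, h1.add continuousOn_const, by simp [h2], ?_, ?_⟩
  · rw [mem_tr]
    simpa using h3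
  · intro t ht
    refine ⟨?_, ?_⟩
    · rw [mem_tr]
      simpa using (h4 t ht).1
    · have := (h4 t ht).2
      simpa using this

/-- **Translations.** -/
theorem _root_.Vale.Agent.P167.H756.PF.add {ψ : ℂ → ℂ} {W : ℝ → ℝ} {t Y Rb : ℝ} {a : ℂ}
    (H : PF h ψ W t Y Rb Q P a) (τ : ℂ) :
    PF h (fun z => ψ z + τ) W t Y Rb (tr τ '' Q) (tr τ '' P) (a + τ) := by
  have e : (fun z => ψ z + τ) '' loewnerDomain W t = tr τ '' (ψ '' loewnerDomain W t) := by
    rw [image_image]
    rfl
  constructor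
  · exact good_tr H.goodQ τ
  · exact good_tr H.good τ
  · rw [e]
    exact image_mono H.subD
  · exact image_mono H.subP
  · intro z hz
    have := H.bdd _ (mem_tr.1 hz)
    rwa [show z - τ - ψ (Y * Complex.I) = z - (ψ (Y * Complex.I) + τ) by ring] at this
  · rw [e]
    exact inner_tr H.innerD τ
  · rw [e]
    exact collar_tr H.collarD τ
  · exact inner_tr H.innerP τ
  · exact collar_tr H.collarP τ
  · rw [← (tr τ).image_frontier, mem_tr]
    simpa using H.mem_a
  · obtain ⟨C, h1, h2, h3, h4, h5⟩ := H.mark_a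
    refine ⟨tr τ '' C, image_mono h1, h2.image _ (tr τ).continuous.continuousOn, ?_, ?_, ?_⟩
    · rw [← (tr τ).image_closure, mem_tr]
      simpa using h3
    · rintro _ ⟨u, hu, rfl⟩ _ ⟨v, hv, rfl⟩
      rw [dist_tr]
      exact h4 u hu v hv
    · obtain ⟨z, hzC, hzQ, w, hw, rfl⟩ := h5
      exact ⟨ψ w + τ, ⟨_, hzC, rfl⟩, ⟨_, hzQ, rfl⟩, ⟨w, hw, rfl⟩⟩

end Vale.Agent.P167.H756.PFG
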